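import Vale.Agent.P144Y.V.Van

/-!
The values of the `H`-function on the components of the complement are bounded by the masses.
-/

namespace Vale.Agent.P144Y.C

open Filter Topology Metric Vale.Agent.P144
open Vale.Agent.P144.H170 (pt pt_fl_norm)

/-- The values outside a diamond vanish. -/
theorem zero_dia {Λ : Finset Site} {W : Site → ℝ} (h : ∀ x ∉ Λ, ∀ y, Cn Λ x y → W y = W x)
    (hf : ∃ M : ℕ, ∀ x ∉ box M, W x = 0) {n : ℤ} (hΛ : ∀ x ∈ Λ, |x.1| + |x.2| ≤ n) {x : Site}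
    (hx : n < |x.1| + |x.2|) : W x = 0 := by
  rcases le_total 0 x.1 with h0 | h0
  · refine V.ray h hf (Or.inl rfl) fun m b => ?_
    have := hΛ _ b
    rw [abs_of_nonneg h0] at hx
    simp only at this
    rw [abs_of_nonneg (by lia)] at this
    lia
  · refine V.ray h hf (Or.inr rfl) fun m b => ?_
    have := hΛ _ b
    rw [abs_of_nonpos h0] at hx
    simp only at this
    rw [abs_of_nonpos (by lia)] at this
    lia

variable {D : Set ℂ} {ι : Type} {l : Filter ι} {a : ι → ℝ} {N : ι → Finset Site}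

/-- Every outer site is connected to the centre of an outer disc. -/
theorem deepOut (ha : Tendsto a l (𝓝[>] 0)) (hN : Appr D l a N) (hl : LC l a N) (hD : IsOpen D)
    (hs : D ⊆ ball 0 (1 / 4)) (hF : Fat D) : ∃ ρ > (0 : ℝ), ∀ᶠ k in l, ∀ x ∉ N k, ∃ y,
      Cn (N k) x y ∧ ∀ u, ‖pt (a k) u - pt (a k) y‖ ≤ ρ → u ∉ N k ∧ ∀ z ∈ D,
        ρ ≤ ‖pt (a k) u - z‖ := by
  obtain ⟨κ, hκ, hκ1, r₀, hr₀, hF⟩ := P144Q.V.fat' hF
  obtain ⟨r, hr, hk⟩ := hl
  obtain ⟨s, s0, s1, s2⟩ : ∃ s > (0 : ℝ), s ≤ r₀ ∧ 4 * s ≤ r :=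
    ⟨min r₀ (r / 4), by positivity, min_le_left _ _, by linarith [min_le_right r₀ (r / 4)]⟩
  have h1 : {x : ℂ | s ≤ infDist x Dᶜ} ⊆ D := fun x hx => by
    by_contra hc
    have : s ≤ infDist x Dᶜ := hx
    rw [infDist_zero_of_mem hc] at this
    linarith
  have h2 : IsCompact {x : ℂ | s ≤ infDist x Dᶜ} :=
    isCompact_of_isClosed_isBounded (isClosed_le continuous_const (continuous_infDist_pt _))
      (isBounded_ball.subset (h1.trans hs))
  have hne : Dᶜ.Nonempty := ⟨1, fun h' => by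
    have := hs h'
    norm_num at this⟩
  have k0 : κ * s ≤ s := mul_le_of_le_one_left s0.le hκ1
  have k1 : 0 < κ * s := by positivity
  refine ⟨κ * s / 4, by positivity, ?_⟩
  filter_upwards [hk, hN.cpt h2 h1, hN.sub (κ * s / 8) (by positivity),
    ha.eventually self_mem_nhdsWithin, (ha.mono_right nhdsWithin_le_nhds).eventually
      (gt_mem_nhds (show 0 < κ * s / 8 by positivity))] with k b1 b2 b3 b4 b5 x hx
  obtain ⟨p, hp, c1⟩ := (infDist_lt_iff hne).1 (not_le.1 fun b => hx (b2 x b))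
  obtain ⟨w, c2, c3⟩ := hF p hp s s0 s1
  have c4 := pt_fl_norm (a := a k) b4 w
  have key : ∀ u, ‖pt (a k) u - pt (a k) (fl (a k) w)‖ ≤ κ * s / 4 → u ∉ N k ∧ ∀ z ∈ D,
      κ * s / 4 ≤ ‖pt (a k) u - z‖ := by
    intro u hu
    have e : ∀ z ∈ D, κ * s / 4 ≤ ‖pt (a k) u - z‖ := fun z hz => by
      by_contra hc
      refine c3 z ?_ hz
      have d1 := norm_sub_le_norm_sub_add_norm_sub z (pt (a k) u) w
      have d2 := norm_sub_le_norm_sub_add_norm_sub (pt (a k) u) (pt (a k) (fl (a k) w)) w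
      rw [norm_sub_rev z (pt (a k) u)] at d1
      linarith [not_le.1 hc]
    refine ⟨fun b => ?_, e⟩
    obtain ⟨z, hz, d⟩ := b3 u b
    linarith [e z hz]
  refine ⟨fl (a k) w, b1 x hx _ (key _ (by rw [sub_self, norm_zero]; positivity)).1 ?_, key⟩
  rw [dist_eq_norm] at c1
  have d1 := norm_sub_le_norm_sub_add_norm_sub (pt (a k) x) p (pt (a k) (fl (a k) w))
  have d2 := norm_sub_le_norm_sub_add_norm_sub p w (pt (a k) (fl (a k) w))
  rw [norm_sub_rev p w, norm_sub_rev w (pt _ _)] at d2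
  linarith

/-- The values in the holes are bounded by the masses. -/
theorem holes (ha : Tendsto a l (𝓝[>] 0)) (hN : Appr D l a N) (hl : LC l a N) (hD : IsOpen D)
    (hs : D ⊆ ball 0 (1 / 4)) (hF : Fat D) : ∃ g ≥ (0 : ℝ), ∀ᶠ k in l,
      ∀ (Hs U : Site → ℝ) (M : ℝ), (∀ x ∉ N k, ∀ y, Cn (N k) x y → Hs y = Hs x) →
        (∃ m : ℕ, ∀ x ∉ box m, Hs x = 0) → (∀ x ∉ N k, U x = Hs x) →
        (∀ T : Finset Site, ∑ w ∈ T, |AL.lap U w| ≤ M) → ∀ x ∉ N k, |Hs x| ≤ g * M := by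
  obtain ⟨ρ, hρ, hk⟩ := deepOut ha hN hl hD hs hF
  have hlog2 : 0 < Real.log 2 := Real.log_pos (by norm_num)
  refine ⟨|Real.log (256 / ρ ^ 2)| / (4 * Real.log 2), by positivity, ?_⟩
  filter_upwards [hk, hN.big ha hs 0, ha.eventually self_mem_nhdsWithin,
    (ha.mono_right nhdsWithin_le_nhds).eventually (gt_mem_nhds (show 0 < ρ / 4 by positivity)),
    (H436.nn_lim ha).eventually (gt_mem_nhds one_lt_two)] with k b1 b2 b3 b4 b5 Hs U M hb hf hU hM
      x hx
  have b3 : 0 < a k := b3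
  obtain ⟨y, c1, c2⟩ := b1 x hx
  rw [← hb x hx y c1, ← hU y (c2 y (by rw [sub_self, norm_zero]; exact hρ.le)).1]
  have hd : ∀ x ∉ dia (H436.nn (a k)), x ∉ N k ∧ Hs x = 0 := fun x hx => by
    rw [AL.mem_dia] at hx
    exact ⟨fun b => hx (by simpa using b2 x b),
      zero_dia hb hf (fun y hy => by simpa using b2 y hy) (not_le.1 hx)⟩
  have hU0 : ∀ x ∉ dia (H436.nn (a k)), U x = 0 := fun x hx => (hU x (hd x hx).1).trans (hd x hx).2
  by_cases hy : y ∈ dia (H436.nn (a k))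
  swap
  · rw [hU0 y hy, abs_zero]
    have : 0 ≤ M := by simpa using hM ∅
    positivity
  refine P144T.hole hU0 hM (by positivity) fun w hw => ?_
  by_cases hwd : w ∈ dia (H436.nn (a k))
  swap
  · rw [H436.green_out hwd]; positivity
  have c3 : ρ / 2 < ‖pt (a k) w - pt (a k) y‖ := by
    by_contra hc
    have o : ∀ u : Site, |u.1 - w.1| ≤ 1 → |u.2 - w.2| ≤ 1 → u ∉ N k := fun u e1 e2 => (c2 u (by
      linarith [norm_sub_le_norm_sub_add_norm_sub (pt (a k) u) (pt (a k) w) (pt (a k) y),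
        P144Q.V.king b3 e1 e2, not_lt.1 hc])).1
    have ow := o w (by simp) (by simp)
    have e : ∀ u : Site, |u.1 - w.1| ≤ 1 → |u.2 - w.2| ≤ 1 → |w.1 - u.1| + |w.2 - u.2| = 1 →
        U u = Hs w := fun u e1 e2 e3 => by
      rw [hU u (o u e1 e2)]
      exact hb w ow u (.single ⟨o u e1 e2, e3⟩)
    refine hw ?_
    unfold AL.lap
    rw [hU w ow, e (w.1 + 1, w.2) (by simp) (by simp) (by simp),
      e (w.1 - 1, w.2) (by simp) (by simp) (by simp), e (w.1, w.2 + 1) (by simp) (by simp) (by simp),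
      e (w.1, w.2 - 1) (by simp) (by simp) (by simp)]
    ring
  refine (H436.green_dia_log hy hwd).trans (div_le_div_of_nonneg_right ?_ (by positivity))
  have hx : 0 < ((w.1 : ℝ) - y.1) ^ 2 + ((w.2 : ℝ) - y.2) ^ 2 + 1 := by positivity
  rw [← Real.log_div (by positivity) hx.ne']
  refine (Real.log_le_log (by positivity) ?_).trans (le_abs_self _)
  have e1 : ‖pt (a k) w - pt (a k) y‖ ^ 2 =
      a k ^ 2 * (((w.1 : ℝ) - y.1) ^ 2 + ((w.2 : ℝ) - y.2) ^ 2) := by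
    rw [Complex.sq_norm, Complex.normSq_apply]
    simp only [pt, Complex.sub_re, Complex.sub_im]
    ring
  have e2 : (ρ / 2) ^ 2 ≤ ‖pt (a k) w - pt (a k) y‖ ^ 2 := by gcongr
  have e3 : (a k * ((H436.nn (a k) : ℝ) + 1)) ^ 2 ≤ 2 ^ 2 := by gcongr
  rw [div_le_div_iff₀ hx (by positivity)]
  refine le_of_mul_le_mul_left ?_ (show 0 < a k ^ 2 by positivity)
  have e4 := mul_le_mul e3 (e2.trans_eq e1) (by positivity) (by positivity)
  nlinarith [sq_nonneg (a k)]

end Vale.Agent.P144Y.C
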