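import Vale.Agent.P144Y.C.B13
import Vale.Agent.P144S.C.K3
import Vale.Agent.P144S.W.Basic
import Vale.Agent.P144T.C.K34

/-!
The limits of the kernel of the fermions on the graph of the cells, with outer disorders.
-/

set_option linter.all false

namespace Vale.Agent.P144Y.C

open Finset Vale.Agent.P144 Filter Topology
open Vale.Agent.P144.H170 (Pt pt tauF rM tauR_rM RS VS Mk gs phA phB phC notMem_Mk of_xlim)
open Vale.Agent.P144.H135 (eA eB eC eE rz gr sg0 F0 w0 v0 PKr gr_sq gr_eq seq_nf lim_of_ultra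
  exists_ker rM_empty)
open Vale.Agent.P144S.C (kA kB kC kE eA_Wf eB_Wf eC_Wf src_one' cnr_Vx cw cw_cnr flw gr_ev sg0_cw
  gr_edge cp_eq cnr_of)

section

variable {Ω : Dom} {κ : Type} [Fintype κ]

/-- The positions. -/
structure Geo (Ω : Dom) (ζ : κ → ℂ) (z' : ℂ) (δ : ℝ) : Prop where
  inj : Function.Injective ζ
  dia : ∀ p, ζ p ∈ Pm Ω.D
  δ0 : 0 < δ
  ball : ∀ w, ‖w - z'‖ ≤ 24 * δ → w ∈ Ω.D
  far : ∀ p, 48 * δ < ‖ζ p - z'‖

theorem exists_geo {ζ : κ → ℂ} (hinj : Function.Injective ζ) (hζ : ∀ p, ζ p ∈ Pm Ω.D) {z' : ℂ}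
    (hz' : z' ∈ Ω.D) (hne : ∀ p, ζ p ≠ z') : ∃ δ, Geo Ω ζ z' δ := by
  obtain ⟨R, hR, hRs⟩ := Metric.mem_nhds_iff.1 (Ω.op.mem_nhds hz')
  obtain ⟨e, he, he'⟩ := H170.exists_pos_le (ε := fun p => ‖ζ p - z'‖) fun p =>
    norm_pos_iff.2 (sub_ne_zero.2 (hne p))
  refine ⟨min (R / 48) (e / 96), hinj, hζ, by positivity, fun w hw => hRs ?_, fun p => ?_⟩
  · rw [Metric.mem_ball, dist_eq_norm]
    have := min_le_left (R / 48) (e / 96)
    linarith
  · have h1 := min_le_right (R / 48) (e / 96)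
    have h2 := he' p
    linarith

end

theorem posw {Ω : Dom} {P : ℝ → Finset Site} {κ : Type} [Fintype κ] {ζ : κ → ℂ} {z' : ℂ} {δ : ℝ}
    (G : Geo Ω ζ z' δ) (hL : FamP Ω.D P) {U : Filter ℝ} (hU : U ≤ 𝓝[>] 0) (w u0 : Site) :
    Pos Ω U (fun a => a) P (rz ζ) ζ (cw z' w u0) z' δ where
  a0 := hU
  hN := hL.1.mono hU
  lc := hL.2.imp fun _ b => ⟨b.1, b.2.filter_mono hU⟩
  hr := fun p => (AL.flt (ζ p)).mono_left hU
  hg := (flw z' w).mono_left hU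
  inj := G.inj
  dia := G.dia
  δ0 := G.δ0
  ball := G.ball
  far := G.far

/-- The spinor data of the kernel. -/
theorem exists_BD {κ : Type} [Fintype κ]
    {P : Finset Site} (r : κ → Site) {c' : AL.Cn} (hc : c'.1 ∈ AL.cnr c'.2) (hN : c'.2 ∈ P) :
    ∃ Hs Hf, BD P r c' (kA P r c') (kB P r c') (kC P r c') (kE P r c') Hs Hf := by
  have hV := cnr_Vx hN hc
  have h := P144S.W.spr P (c'.2 ::ₘ rM r) {c'.1} (QQ P (rM r) 0) (by simpa using hV)
  obtain ⟨Hs, Hf, hH⟩ := H.sex _ _ _ _ _ _ _ h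
  have e1 : AL.tauR (c'.2 ::ₘ rM r) = fun x => AL.cut1 c'.2 (x.1, x.2 + 1) * tauF r x := by
    funext x
    unfold AL.tauR
    rw [AL.cutS_cons, ← tauR_rM]
    rfl
  have e2 : AL.theA {c'.1} = fun x => chi (AL.sw x.1 x.2) c'.1 := by
    funext x
    unfold AL.theA AL.chiM
    simp
  rw [e1, e2] at h
  refine ⟨Hs, Hf, hc, h, hH, fun he => ?_, fun he => ?_, fun he => ?_,
    fun he => ?_⟩
  · have h1 : c'.1 = c'.2 := by rw [← he]
    unfold kA xA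
    rw [if_pos (by rw [← h1]; exact hV), h1]
    exact src_one' _ _ _ _
  · have h1 : c'.1 = (c'.2.1 + 1, c'.2.2) := by rw [← he]
    unfold kB xB
    rw [if_pos (by rw [← h1]; exact hV), h1]
    exact src_one' _ _ _ _
  · have h1 : c'.1 = (c'.2.1, c'.2.2 + 1) := by rw [← he]
    unfold kC xC
    rw [if_pos (by rw [← h1]; exact hV), h1]
    exact src_one' _ _ _ _
  · have h1 : c'.1 = (c'.2.1 + 1, c'.2.2 + 1) := by rw [← he]
    unfold kE xD
    rw [if_pos (by rw [← h1]; exact hV), h1]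
    exact src_one' _ _ _ _

/-- The limit of the kernel exists along ultrafilters. -/
theorem sbk {Ω : Dom} {P : ℝ → Finset Site} (hP : FamP Ω.D P) {κ : Type} [Fintype κ]
    {ζ : κ → ℂ} {z' : ℂ} {δ : ℝ} (G : Geo Ω ζ z' δ) {U : Ultrafilter ℝ}
    (hU : (U : Filter ℝ) ≤ 𝓝[>] 0) (w : Site) {u0 : Site} (hu0 : u0 ∈ AL.cnr 0)
    {QA QB QC QE : Pt → ℝ} {κ0 : ℂ} (K : PKr u0 QA QB QC QE κ0) {S : κ → Prop}
    (hS' : Metric.closedBall z' (24 * δ) ⊆ VS S F0 ζ w0) :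
    ∃ q y, BLim Ω (U : Filter ℝ) (fun a => a) (rz ζ) ζ (cw z' w u0) z' δ
      (fun a => kA (P a) (fun p => rz ζ p a) (cw z' w u0 a))
      (fun a => kB (P a) (fun p => rz ζ p a) (cw z' w u0 a))
      (fun a => kC (P a) (fun p => rz ζ p a) (cw z' w u0 a))
      (fun a => kE (P a) (fun p => rz ζ p a) (cw z' w u0 a)) S QA QB QC QE κ0 q y := by
  have hpos := posw G hP hU w u0
  have hmem : ∀ᶠ a in (U : Filter ℝ), (cw z' w u0 a).2 ∈ P a :=
    hpos.hN.mem hpos.a0 hpos.zD hpos.hg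
  have hex : ∀ a, ∃ Hs Hf : Site → ℝ, (cw z' w u0 a).2 ∈ P a →
      BD (P a) (fun p => rz ζ p a) (cw z' w u0 a)
      (kA (P a) (fun p => rz ζ p a) (cw z' w u0 a)) (kB (P a) (fun p => rz ζ p a) (cw z' w u0 a))
      (kC (P a) (fun p => rz ζ p a) (cw z' w u0 a)) (kE (P a) (fun p => rz ζ p a) (cw z' w u0 a))
      Hs Hf := by
    intro a
    by_cases h : (cw z' w u0 a).2 ∈ P a
    · obtain ⟨Hs, Hf, hB⟩ := exists_BD (fun p => rz ζ p a) (cw_cnr hu0 z' w a) h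
      exact ⟨Hs, Hf, fun _ => hB⟩
    · exact ⟨0, 0, fun h' => absurd h' h⟩
  choose Hs Hf hB using hex
  exact blim_exists hpos (hmem.mono fun a ha => hB a ha) K (Eventually.of_forall fun a => rfl) hS'

variable {Ω : Dom} {P : ℝ → Finset Site}

theorem in_ev (hL : Fam0 Ω.D P) {z : ℂ} (hz : z ∈ Ω.D) (w : Site) :
    ∀ᶠ a in 𝓝[>] (0:ℝ), fl a z + w ∈ P a := hL.mem AL.idt hz (flw z w)

/-- The limit of the kernel at the target. -/
theorem tgt {κ : Type} [Fintype κ] {ζ : κ → ℂ} (hL : Fam0 Ω.D P) {z : ℂ} (w : Site) {u0 : Site}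
    (h0 : u0 = (0, 0) ∨ u0 = (1, 0) ∨ u0 = (0, 1)) {S' : κ → Prop} (hS' : z ∈ VS S' F0 ζ w0) :
    ∃ (φ : ℂ →L[ℝ] ℝ) (s : ℝ), ∀ {z' : ℂ} (_ : z ∈ (Ω.D \ {z'}) \ Mk ζ w0) {c : ℝ → AL.Cn}
      {U : Filter ℝ} (_ : U ≤ 𝓝[>] 0) {δ : ℝ} {S : κ → Prop} {QA QB QC QE : Pt → ℝ}
      {κ0 : ℂ} {q Y : ℂ → ℂ} (_ : BLim Ω U (fun a => a) (rz ζ) ζ c z' δ
      (fun a => kA (P a) (fun i => rz ζ i a) (c a)) (fun a => kB (P a) (fun i => rz ζ i a) (c a))
      (fun a => kC (P a) (fun i => rz ζ i a) (c a)) (fun a => kE (P a) (fun i => rz ζ i a) (c a))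
      S QA QB QC QE κ0 q Y),
      Tendsto (fun a : ℝ => gr S' (fun i => rz ζ i a) (((fl a z).1 : ℝ) + s) *
        (a⁻¹ * (sg0 S (fun i => rz ζ i a) (c a) *
          Wf (P a) (rM fun i => rz ζ i a) [cw z w u0 a, c a]))) U
        (𝓝 (φ (q z / RS S' F0 ζ w0 z))) := by
  have hr : ∀ {U : Filter ℝ}, U ≤ 𝓝[>] 0 → ∀ i, Tendsto (fun a => pt a (rz ζ i a)) U (𝓝 (ζ i)) :=
    fun hU i => (AL.flt (ζ i)).mono_left hU
  have eg : ∀ (a s : ℝ), gs S' F0 (fun i => rz ζ i a) (fun q => v0 q a)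
      (((fl a z + w).1 : ℝ) + s) = gr S' (fun i => rz ζ i a) (((fl a z).1 : ℝ) + (w.1 + s)) := by
    intro a s
    rw [gr_eq]
    congr 1
    simp only [Prod.fst_add]
    push_cast
    ring
  rcases h0 with rfl | rfl | rfl
  · refine ⟨phA, w.1 + 1 / 4, fun {z'} hz {c U} hU {δ S QA QB QC QE κ0 q Y} hB => ?_⟩
    have h1 := (of_xlim (v := v0) (ω := w0) hU (hr hU) (fun q => q.elim) hS' (Or.inl rfl) _ _
      (X := fun k x => k⁻¹ * (sg0 S (fun i => rz ζ i k) (c k) *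
        eA (c k) (kA (P k) (fun i => rz ζ i k) (c k)) x))
      (hB.slim.A _ hz)).comp (seq_nf ((flw z w).mono_left hU))
    refine h1.congr' ?_
    filter_upwards [(in_ev hL hz.1.1 w).filter_mono hU] with a ha
    simp only [Function.comp_apply]
    rw [eA_Wf _ _ _ (cnr_Vx ha (by simp [AL.mem_cnr])), eg]
    have e0 : cw z w (0, 0) a = (fl a z + w, fl a z + w) := by
      unfold cw; congr 1; ext <;> simp
    rw [e0]
  · refine ⟨phB, w.1 + 3 / 4, fun {z'} hz {c U} hU {δ S QA QB QC QE κ0 q Y} hB => ?_⟩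
    have h1 := (of_xlim (v := v0) (ω := w0) hU (hr hU) (fun q => q.elim) hS' (Or.inr rfl) _ _
      (X := fun k x => k⁻¹ * (sg0 S (fun i => rz ζ i k) (c k) *
        eB (c k) (kB (P k) (fun i => rz ζ i k) (c k)) x))
      (hB.slim.B _ hz)).comp (seq_nf ((flw z w).mono_left hU))
    refine h1.congr' ?_
    filter_upwards [(in_ev hL hz.1.1 w).filter_mono hU] with a ha
    simp only [Function.comp_apply]
    rw [eB_Wf _ _ _ (cnr_Vx ha (by simp [AL.mem_cnr])), eg]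
    have e0 : cw z w (1, 0) a = (((fl a z + w).1 + 1, (fl a z + w).2), fl a z + w) := by
      unfold cw; congr 1; ext <;> simp
    rw [e0]
  · refine ⟨phC, w.1 + 1 / 4, fun {z'} hz {c U} hU {δ S QA QB QC QE κ0 q Y} hB => ?_⟩
    have h1 := (of_xlim (v := v0) (ω := w0) hU (hr hU) (fun q => q.elim) hS' (Or.inl rfl) _ _
      (X := fun k x => k⁻¹ * (sg0 S (fun i => rz ζ i k) (c k) *
        eC (c k) (kC (P k) (fun i => rz ζ i k) (c k)) x))
      (hB.slim.C _ hz)).comp (seq_nf ((flw z w).mono_left hU))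
    refine h1.congr' ?_
    filter_upwards [(in_ev hL hz.1.1 w).filter_mono hU] with a ha
    simp only [Function.comp_apply]
    rw [eC_Wf _ _ _ (cnr_Vx ha (by simp [AL.mem_cnr])), eg]
    have e0 : cw z w (0, 1) a = (((fl a z + w).1, (fl a z + w).2 + 1), fl a z + w) := by
      unfold cw; congr 1; ext <;> simp
    rw [e0]

/-- All the disorders. -/
def zs (p : Pts) (T : Finset ℂ) : Fin p.n ⊕ T → ℂ := Sum.elim p.x fun s => s

theorem Rq_eq (p : Pts) (T : Finset ℂ) (a : ℝ) :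
    Rq p a + fm a T = rM fun i => rz (zs p T) i a := by
  unfold Rq fm rM
  rw [← univ_disjSum_univ, val_disjSum, Multiset.disjSum, Multiset.map_add, Multiset.map_map,
    Multiset.map_map, univ_eq_attach, attach_val, ← Multiset.attach_map_val' T.val (fl a)]
  rfl

section

variable {p : Pts} (hp : Good0 Ω.D p) {T : Finset ℂ} (hT : ∀ z ∈ T, z ∈ Ext Ω.D)

include hp hT

theorem zs_ne (k : Fin p.m) (i : Fin p.n ⊕ T) : zs p T i ≠ p.y k := by
  rcases i with i | s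
  · exact P144T.C.xy_ne (Ω := Ω.toDom) hp i k
  · exact fun e => (hT _ s.2).2 (subset_closure (by
      have e' : (s : ℂ) = p.y k := e
      rw [e']; exact hp.2.1 k))

theorem geo_of (l : Fin p.m) : ∃ δ, Geo Ω (zs p T) (p.y l) δ := by
  have o : ∀ (i : Fin p.n) (s : T), p.x i ≠ s := fun i s e =>
    (hT _ s.2).2 (subset_closure (e ▸ hp.1 i))
  refine exists_geo ?_ ?_ (hp.2.1 l) (zs_ne hp hT l)
  · rintro (i | s) (j | t) h
    · exact congrArg Sum.inl (Sum.inl_injective (hp.2.2 (by simpa [zs] using h)))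
    · exact absurd h (o i t)
    · exact absurd h.symm (o j s)
    · exact congrArg Sum.inr (Subtype.ext h)
  · rintro (i | s)
    · exact Or.inl (hp.1 i)
    · exact Or.inr (hT _ s.2)

theorem nM_of (k : Fin p.m) : p.y k ∉ Mk (zs p T) w0 := by
  rintro (⟨i, hi⟩ | ⟨q, -⟩)
  · exact zs_ne hp hT k i hi
  · exact q.elim

end

theorem Geo.pat {κ : Type} [Fintype κ] {ζ : κ → ℂ} {z' : ℂ} {δ : ℝ} (G : Geo Ω ζ z' δ)
    (hL : FamP Ω.D P) : ∃ S, Metric.closedBall z' (24 * δ) ⊆ VS S F0 ζ w0 :=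
  (posw G hL (U := 𝓝[>] 0) le_rfl 0 (0, 0)).pat

theorem Geo.empty {κ : Type} {ζ : κ → ℂ} {z' : ℂ} {δ : ℝ} (G : Geo Ω ζ z' δ) :
    Geo Ω w0 z' δ :=
  ⟨fun q => q.elim, fun q => q.elim, G.δ0, G.ball, fun q => q.elim⟩

/-- **Two energies.** -/
theorem k3 (hL : FamP Ω.D P) {p : Pts} (hp : Good0 Ω.D p) {T : Finset ℂ}
    (hT : ∀ z ∈ T, z ∈ Ext Ω.D) : K3W P p T := by
  intro k l hkl b b'
  obtain ⟨w, u0, h0, cx⟩ := cp_eq p k b
  obtain ⟨w1, u1, h1, cy⟩ := cp_eq p l b'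
  obtain ⟨δ, G⟩ := geo_of hp hT l
  obtain ⟨S, hS⟩ := G.pat hL
  obtain ⟨QA, QB, QC, QE, κ0, K⟩ := exists_ker u1 (cnr_of h1)
  have hzM := nM_of hp hT k
  have hz : p.y k ∈ (Ω.D \ {p.y l}) \ Mk (zs p T) w0 :=
    ⟨⟨hp.2.1 k, fun h => hkl (Sum.inr_injective (hp.2.2 (by simpa using h)))⟩, hzM⟩
  obtain ⟨S', S'', hS'⟩ := H170.exists_pattern (ζ := (zs p T)) (ω := w0) (z := p.y k)
    (notMem_Mk.1 hzM).1 (fun q => q.elim)
  have e'' : S'' = F0 := funext fun q => q.elim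
  rw [e''] at hS'
  obtain ⟨φ, s, hφ⟩ := tgt hL.1 w h0 hS'
  obtain ⟨σ, hσ, eσ⟩ := gr_ev S' (zs p T) (p.y k) s
  obtain ⟨σ', hσ', eσ'⟩ := gr_ev S (zs p T) (p.y l) (w1.1 + if u1.1 = 0 then 1 / 4 else 3 / 4)
  have key : ∀ (U : Ultrafilter ℝ) (_ : (U : Filter ℝ) ≤ 𝓝[>] 0) (q Y : ℂ → ℂ),
      BLim Ω (U : Filter ℝ) (fun a => a) (rz (zs p T)) (zs p T) (cw (p.y l) w1 u1) (p.y l) δ
      (fun a => kA (P a) (fun i => rz (zs p T) i a) (cw (p.y l) w1 u1 a))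
      (fun a => kB (P a) (fun i => rz (zs p T) i a) (cw (p.y l) w1 u1 a))
      (fun a => kC (P a) (fun i => rz (zs p T) i a) (cw (p.y l) w1 u1 a))
      (fun a => kE (P a) (fun i => rz (zs p T) i a) (cw (p.y l) w1 u1 a)) S QA QB QC QE κ0 q Y →
      Tendsto (fun a : ℝ => Wf (P a) (Rq p a + fm a T) [cp p a k b, cp p a l b'] / a) U
        (𝓝 (σ * σ' * φ (q (p.y k) / RS S' F0 (zs p T) w0 (p.y k)))) := by
    intro U hU q Y hB
    refine ((hφ hz hU hB).const_mul (σ * σ')).congr' ?_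
    filter_upwards [eσ.filter_mono hU, eσ'.filter_mono hU] with a g1 g2
    rw [sg0_cw, g1, g2, cx, cy, Rq_eq, div_eq_mul_inv]
    generalize Wf (P a) (rM fun i => rz (zs p T) i a) [cw (p.y k) w u0 a, cw (p.y l) w1 u1 a] = W
    linear_combination (a⁻¹ * W * (σ' * σ')) * hσ + (a⁻¹ * W) * hσ'
  refine lim_of_ultra fun U V hU hV => ?_
  obtain ⟨q, Y, hB⟩ := sbk hL G hU w1 (cnr_of h1) K hS
  obtain ⟨q', Y', hB'⟩ := sbk hL G hV w1 (cnr_of h1) K hS
  obtain ⟨hq, -⟩ := blim_unique (posw G hL hU w1 u1) hS hB hB'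
  refine ⟨_, key U hU q Y hB, ?_⟩
  rw [hq _ hz.1.1 hz.1.2]
  exact key V hV q' Y' hB'

/-- **The two corners of an energy.** -/
theorem k4 (hL : FamP Ω.D P) {p : Pts} (hp : Good0 Ω.D p) {T : Finset ℂ}
    (hT : ∀ z ∈ T, z ∈ Ext Ω.D) : K4W P p T := by
  intro k
  obtain ⟨δ, G⟩ := geo_of hp hT k
  obtain ⟨S, hS⟩ := G.pat hL
  have h00 : ((0, 0) : Site) ∈ AL.cnr 0 := cnr_of (Or.inl rfl)
  obtain ⟨QA, QB, QC, QE, κ0, K⟩ := exists_ker (0, 0) h00
  have G0 := G.empty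
  have hδ := G.δ0
  have hS0 : Metric.closedBall (p.y k) (24 * δ) ⊆ VS F0 F0 w0 w0 := fun z _ =>
    ⟨fun q => q.elim, fun q => q.elim⟩
  have hzo : p.y k ∈ Metric.ball (p.y k) (24 * δ) := Metric.mem_ball_self (by positivity)
  set w : Site := dir (p.j k) with hw
  have cy : ∀ a, cp p a k true = cw (p.y k) w (0, 0) a := fun a => by
    unfold cp ce cw
    simp only [if_true]
    congr 1
    ext <;> simp [hw]
  have hin : ∀ᶠ a in 𝓝[>] (0:ℝ), fl a (p.y k) ∈ P a :=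
    P144T.Appr.mem AL.idt hL.1 (hp.2.1 k) (AL.flt _)
  -- the limit for one family of disorders
  obtain ⟨φ, Q, hφ⟩ : ∃ (φ : ℂ →L[ℝ] ℝ) (Q : ℝ), ∀ {κ : Type} [Fintype κ] {ζ : κ → ℂ}
      {S : κ → Prop} {U : Filter ℝ} (_ : U ≤ 𝓝[>] 0) {q Y : ℂ → ℂ}
      (_ : BLim Ω U (fun a => a) (rz ζ) ζ (cw (p.y k) w (0, 0)) (p.y k) δ
      (fun a => kA (P a) (fun i => rz ζ i a) (cw (p.y k) w (0, 0) a))
      (fun a => kB (P a) (fun i => rz ζ i a) (cw (p.y k) w (0, 0) a))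
      (fun a => kC (P a) (fun i => rz ζ i a) (cw (p.y k) w (0, 0) a))
      (fun a => kE (P a) (fun i => rz ζ i a) (cw (p.y k) w (0, 0) a)) S QA QB QC QE κ0 q Y),
      Tendsto (fun a : ℝ => a⁻¹ * (Wf (P a) (rM fun i => rz ζ i a)
        [cp p a k false, cp p a k true] - Q)) U (𝓝 (φ (Y (p.y k)))) := by
    by_cases hj : p.j k = 0
    · have e : w = (1, 0) := by rw [hw]; unfold dir; rw [if_pos hj]
      refine ⟨phB, QB (-w), fun {κ _ ζ S U} hU {q Y} hB => ?_⟩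
      refine ((hB.B _ hzo).comp (seq_nf ((AL.flt (p.y k)).mono_left hU))).congr' ?_
      filter_upwards [hin.filter_mono hU] with a ha
      simp only [Function.comp_apply]
      have e1 : cp p a k false = (((fl a (p.y k)).1 + 1, (fl a (p.y k)).2), fl a (p.y k)) := by
        unfold cp ce
        rw [← hw, e]
        simp only [Bool.false_eq_true, if_false]
        congr 1
        ext <;> simp
      have e2 : fl a (p.y k) - (cw (p.y k) w (0, 0) a).2 = -w := by unfold cw; simp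
      rw [eB_Wf _ _ _ (cnr_Vx ha (by simp [AL.mem_cnr])), sg0_cw, e1, cy, e2, ← mul_assoc,
        if_pos rfl]
      have e3 : ((w.1 : ℤ) : ℝ) = 1 := by rw [e]; simp
      rw [e3, gr_edge, gr_sq, one_mul]
    · have e : w = (0, 1) := by rw [hw]; unfold dir; rw [if_neg hj]
      refine ⟨phC, QC (-w), fun {κ _ ζ S U} hU {q Y} hB => ?_⟩
      refine ((hB.C _ hzo).comp (seq_nf ((AL.flt (p.y k)).mono_left hU))).congr' ?_
      filter_upwards [hin.filter_mono hU] with a ha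
      simp only [Function.comp_apply]
      have e1 : cp p a k false = (((fl a (p.y k)).1, (fl a (p.y k)).2 + 1), fl a (p.y k)) := by
        unfold cp ce
        rw [← hw, e]
        simp only [Bool.false_eq_true, if_false]
        congr 1
        ext <;> simp
      have e2 : fl a (p.y k) - (cw (p.y k) w (0, 0) a).2 = -w := by unfold cw; simp
      rw [eC_Wf _ _ _ (cnr_Vx ha (by simp [AL.mem_cnr])), sg0_cw, e1, cy, e2, ← mul_assoc,
        if_pos rfl]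
      have e3 : ((w.1 : ℤ) : ℝ) = 0 := by rw [e]; simp
      rw [e3, zero_add, gr_sq, one_mul]
  have key : ∀ (U : Ultrafilter ℝ) (_ : (U : Filter ℝ) ≤ 𝓝[>] 0) {c c0 : ℝ},
      Tendsto (fun a : ℝ => a⁻¹ * (Wf (P a) (rM fun i => rz (zs p T) i a)
        [cp p a k false, cp p a k true] - Q)) U (𝓝 c) →
      Tendsto (fun a : ℝ => a⁻¹ * (Wf (P a) (rM fun i => rz w0 i a)
        [cp p a k false, cp p a k true] - Q)) U (𝓝 c0) →
      Tendsto (fun a : ℝ => (Wf (P a) (Rq p a + fm a T) [cp p a k false, cp p a k true] -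
        Wf (P a) 0 [cp p a k false, cp p a k true]) / a) U (𝓝 (c - c0)) := by
    intro U hU c c0 h1 h2
    refine (h1.sub h2).congr fun a => ?_
    rw [rM_empty, Rq_eq]
    ring
  refine lim_of_ultra fun U V hU hV => ?_
  obtain ⟨q, Y, hB⟩ := sbk hL G hU w h00 K hS
  obtain ⟨q', Y', hB'⟩ := sbk hL G hV w h00 K hS
  obtain ⟨q0, Y0, hB0⟩ := sbk hL G0 hU w h00 K hS0
  obtain ⟨q0', Y0', hB0'⟩ := sbk hL G0 hV w h00 K hS0
  obtain ⟨-, hY⟩ := blim_unique (posw G hL hU w (0, 0)) hS hB hB'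
  obtain ⟨-, hY0⟩ := blim_unique (posw G0 hL hU w (0, 0)) hS0 hB0 hB0'
  refine ⟨_, key U hU (hφ hU hB) (hφ hU hB0), ?_⟩
  rw [hY _ hzo, hY0 _ hzo]
  exact key V hV (hφ hV hB') (hφ hV hB0')

/-- **The kernels.** -/
theorem k34 : SK34 := fun _ _ h _ hp _ hT => ⟨k3 h hp hT, k4 h hp hT⟩

end Vale.Agent.P144Y.C
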