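import Vale.Agent.P144Y.H.Cut
import Vale.Agent.P144Y.R.Main
import Vale.Agent.P144T.C.B13

/-!
Spinors with a source in the bulk on the graph of the cells: data, masses and `ℓ²` bounds.
-/

set_option linter.all false

namespace Vale.Agent.P144Y.C

open Finset Vale.Agent.P144 Filter Topology
open Vale.Agent.P144.H170 (Pt pt bx mem_bx bx_mono tauF tauF_step L2ball lap nf apos_nf ev_nf_of
  HOn)
open Vale.Agent.P144.H135 hiding Pos

/-- A spinor with the source `c'` and the disorders `r`. -/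
structure BD {κ : Type} [Fintype κ] (P : Finset Site) (r : κ → Site) (c' : AL.Cn)
    (A B C E Hs Hf : Site → ℝ) : Prop where
  cnr : c'.1 ∈ AL.cnr c'.2
  spr : Spr P (fun x => AL.cut1 c'.2 (x.1, x.2 + 1) * tauF r x)
    (fun x => chi (AL.sw x.1 x.2) c'.1) A B C E
  isH : IsH A B C E Hs Hf
  sA : ((c'.2, c'.2) : AL.Cn) = c' → A c'.2 = 1
  sB : (((c'.2.1 + 1, c'.2.2), c'.2) : AL.Cn) = c' → B c'.2 = 1
  sC : (((c'.2.1, c'.2.2 + 1), c'.2) : AL.Cn) = c' → C c'.2 = 1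
  sE : (((c'.2.1 + 1, c'.2.2 + 1), c'.2) : AL.Cn) = c' → E c'.2 = 1

/-- The assumptions on the positions. -/
structure Pos (Ω : Dom) {ι κ : Type} (l : Filter ι) (a : ι → ℝ) (N : ι → Finset Site)
    (r : κ → ι → Site) (ζ : κ → ℂ) (c : ι → AL.Cn) (z' : ℂ) (δ : ℝ) : Prop where
  a0 : Tendsto a l (𝓝[>] 0)
  hN : Appr Ω.D l a N
  lc : LC l a N
  hr : ∀ p, Tendsto (fun k => pt (a k) (r p k)) l (𝓝 (ζ p))
  hg : Tendsto (fun k => pt (a k) (c k).2) l (𝓝 z')
  inj : Function.Injective ζ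
  dia : ∀ p, ζ p ∈ Pm Ω.D
  δ0 : 0 < δ
  ball : ∀ w, ‖w - z'‖ ≤ 24 * δ → w ∈ Ω.D
  far : ∀ p, 48 * δ < ‖ζ p - z'‖

variable {Ω : Dom} {ι κ : Type} [Fintype κ] {a : ι → ℝ} {N : ι → Finset Site} {r : κ → ι → Site}
  {ζ : κ → ℂ} {c : ι → AL.Cn} {z' : ℂ} {δ : ℝ} {A B C E Hs Hf : ι → Pt → ℝ} {L : ι → ℝ}
  {l : Filter ι}

theorem Pos.apos (h : Pos Ω l a N r ζ c z' δ) : ∀ᶠ k in l, 0 < a k := h.a0.eventually
  self_mem_nhdsWithin

theorem Pos.asmall (h : Pos Ω l a N r ζ c z' δ) {ε : ℝ} (hε : 0 < ε) : ∀ᶠ k in l, a k < ε :=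
  (h.a0.mono_right nhdsWithin_le_nhds).eventually (gt_mem_nhds hε)

theorem Pos.gclose (h : Pos Ω l a N r ζ c z' δ) {ε : ℝ} (hε : 0 < ε) :
    ∀ᶠ k in l, ‖pt (a k) (c k).2 - z'‖ < ε := by
  have := (Metric.tendsto_nhds.1 h.hg) ε hε
  simpa only [dist_eq_norm] using this

/-- The lattice points of the ball are in the domain. -/
theorem Pos.inDia (h : Pos Ω l a N r ζ c z' δ) :
    ∀ᶠ k in l, ∀ x, ‖pt (a k) x - z'‖ ≤ 24 * δ → x ∈ N k := by
  filter_upwards [h.hN.cpt (isCompact_closedBall z' (24 * δ)) fun z hz => h.ball z (by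
    rwa [Metric.mem_closedBall, dist_eq_norm] at hz)] with k hk x hx
  exact hk x (by rw [Metric.mem_closedBall, dist_eq_norm]; exact hx)

/-- The disorders are far from the source. -/
theorem Pos.rfar (h : Pos Ω l a N r ζ c z' δ) :
    ∀ᶠ k in l, ∀ p, 48 * δ < ‖pt (a k) (r p k) - pt (a k) (c k).2‖ := by
  rw [eventually_all]
  intro p
  exact ((h.hr p).sub h.hg).norm.eventually (lt_mem_nhds (h.far p))

theorem Pos.rinj (h : Pos Ω l a N r ζ c z' δ) : ∀ᶠ k in l, Function.Injective fun p => r p k := by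
  have h1 : ∀ᶠ k in l, ∀ p p', p ≠ p' → r p k ≠ r p' k := by
    rw [eventually_all]; intro p
    rw [eventually_all]; intro p'
    by_cases hp : p = p'
    · exact Eventually.of_forall fun _ h' => absurd hp h'
    · have h2 : ζ p - ζ p' ≠ 0 := sub_ne_zero.2 fun h' => hp (h.inj h')
      filter_upwards [((h.hr p).sub (h.hr p')).eventually_ne h2] with k hk _ h'
      rw [h', sub_self] at hk
      exact hk rfl
  filter_upwards [h1] with k hk p p' hpp
  by_contra hne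
  exact hk p p' hne hpp

open Classical in
/-- The exceptional spins and faces. -/
theorem Pos.exc (h : Pos Ω l a N r ζ c z' δ) (hc : ∀ᶠ k in l, (c k).1 ∈ AL.cnr (c k).2) :
    ∀ᶠ k in l, Exg (Vx (N k)) (N k)
      (fun x => AL.cut1 (c k).2 (x.1, x.2 + 1) * tauF (fun p => r p k) x)
      (fun x => chi (AL.sw x.1 x.2) (c k).1) {(c k).1}
      (insert (c k).2 ((univ.image fun p => r p k) ∩ N k)) ((univ.image fun p => r p k) ∩ N k) := by
  have hz' : z' ∈ Ω.D := h.ball z' (by rw [sub_self, norm_zero]; linarith [h.δ0])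
  have hrN := eventually_all.2 fun p => R.in_out h.a0 h.hN (h.dia p) (h.hr p) 2
  filter_upwards [hc, h.rinj, h.rfar, h.hN.deep h.a0 hz' h.hg 2, hrN, h.apos, h.asmall h.δ0]
    with k k1 k2 k3 k4 k5 k6 k7
  have hcc := AL.mem_cnr.1 k1
  have far : ∀ p, ∀ v : Site, |v.1 - (r p k).1| ≤ 1 → |v.2 - (r p k).2| ≤ 1 → v ≠ (c k).1 := by
    intro p v h1 h2 h3
    have h4 := k3 p
    have h5 : r p k ∈ bx (c k).2 2 := by
      rw [mem_bx]
      rw [abs_le] at h1 h2
      rcases hcc with h6 | h6 | h6 | h6 <;> rw [h3, h6] at h1 h2 <;> push_cast <;> lia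
    have h6 := norm_of_bx k6 h5
    push_cast at h6
    linarith
  have hne : ∀ p, r p k ≠ (c k).2 := by
    intro p h'
    have h4 := k3 p
    rw [h', sub_self, norm_zero] at h4
    linarith [h.δ0]
  refine ⟨fun i j hij => ?_, fun i j hij ⟨u, u1, u2⟩ => ?_, fun w hw => ?_, fun w hw => ?_,
    subset_insert _ _, fun f hf => ?_, fun f hf w hw hw' => ?_⟩
  · rw [mem_singleton] at hij
    unfold chi AL.sw
    simp only [sub_add_cancel]
    congr 1
    refine propext ⟨fun h1 => ⟨h1.1, by lia⟩, fun h1 => ⟨h1.1, ?_⟩⟩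
    by_contra hc'
    exact hij (Prod.ext h1.1.symm (by simp only; lia))
  · rw [mem_insert, not_or] at hij
    simp only [sub_add_cancel]
    rw [cut1_step hij.1, tauF_step fun p h' => ?_]
    rcases k5 p with b | b
    · exact hij.2 (mem_inter.2 ⟨mem_image.2 ⟨p, mem_univ p, h'.symm⟩,
        b _ (by rw [h']; simp) (by rw [h']; simp)⟩)
    · obtain ⟨f, f1, f2⟩ := mem_biUnion.1 u2
      rw [← h'] at b
      rw [AL.mem_cnr] at u1 f2
      refine b f ?_ ?_ f1 <;> rw [abs_le] <;> simp only [Prod.ext_iff] at u1 f2 <;> lia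
  · rw [mem_singleton] at hw
    subst hw
    intro x h1 h2
    rw [abs_le] at h1 h2
    refine k4 x ?_ ?_ <;> rw [abs_le] <;> rcases hcc with h6 | h6 | h6 | h6 <;>
      rw [h6] at h1 h2 <;> push_cast at h1 h2 ⊢ <;> lia
  · rw [mem_insert, mem_inter, mem_image] at hw
    rcases hw with rfl | ⟨⟨p, -, rfl⟩, b⟩
    · exact k4
    · exact (k5 p).resolve_right fun b' => b' _ (by simp) (by simp) b
  · obtain ⟨p, -, rfl⟩ := mem_image.1 (mem_inter.1 hf).1
    have h1 := tauF_branch k2 p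
    simp only [sub_add_cancel, Prod.mk.eta]
    rw [h1, cut1_step (hne p)]
    simp only [Prod.mk.eta]
    ring
  · obtain ⟨p, -, rfl⟩ := mem_image.1 (mem_inter.1 hf).1
    rw [mem_singleton] at hw'
    refine far p w ?_ ?_ hw'
    · rcases AL.mem_cnr.1 hw with h6 | h6 | h6 | h6 <;> rw [h6] <;> simp
    · rcases AL.mem_cnr.1 hw with h6 | h6 | h6 | h6 <;> rw [h6] <;> simp

theorem hon_all (h : Pos Ω l a N r ζ c z' δ)
    (hB : ∀ᶠ k in l, BD (N k) (fun p => r p k) (c k) (A k) (B k) (C k) (E k) (Hs k) (Hf k))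
    (hL0 : ∀ᶠ k in l, 0 < L k) (U : Set ℂ) : HOn l a U (fA a L c A) (fB a L c B) (fC a L c C)
      (fE a L c E) (fun k x => Hs k x / L k) (fun k x => Hf k x / L k) := by
  intro z _
  filter_upwards [ev_nf_of (l := l) (a := a) (z := z) hB, apos_nf h.a0 z,
    ev_nf_of (l := l) (a := a) (z := z) hL0] with kx k1 k2 k3
  obtain ⟨k, i, j⟩ := kx
  simp only at k1 k2 k3
  have e : ∀ y : ℝ, a k * ((sc a L k)⁻¹ * y) ^ 2 = y ^ 2 / L k := by
    intro y
    unfold sc
    rw [mul_pow, inv_pow, Real.sq_sqrt (by positivity)]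
    field_simp
  simp only [fA, fB, fC, fE, e, Prod.mk_add_mk, add_zero]
  unfold eA eB eC eE
  simp only [ep_sq2]
  have g1 := k1.isH.a i j
  have g2 := k1.isH.b i j
  have g3 := k1.isH.c i j
  have g4 := k1.isH.d i j
  rw [← g1, ← g2, ← g3, ← g4]
  refine ⟨by ring, by ring, by ring, by ring⟩

variable (h : Pos Ω l a N r ζ c z' δ)
  (hB : ∀ᶠ k in l, BD (N k) (fun p => r p k) (c k) (A k) (B k) (C k) (E k) (Hs k) (Hf k))
  (hL0 : ∀ᶠ k in l, 0 < L k) (hL : ∀ᶠ k in l, Ann δ (a k) (c k) (Hs k) (Hf k) (L k))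

include h hB hL0 hL

/-- The masses outside a box. -/
theorem masses : ∀ᶠ k in l, ∀ T : Finset Site,
    ∑ w ∈ T, |lap (fun x => (1 - CT (c k).2 (2 * nb δ (a k)) x) * Hs k x) w| ≤ 900000 * L k ∧
    ∑ w ∈ T, |lap (fun x => (1 - CT (c k).2 (2 * nb δ (a k)) x) * Hf k x) w| ≤ 900000 * L k := by
  classical
  have hc : ∀ᶠ k in l, (c k).1 ∈ AL.cnr (c k).2 := by
    filter_upwards [hB] with k hk
    exact hk.cnr
  filter_upwards [h.exc hc, hB, hL0, hL, h.apos, h.asmall (show 0 < δ / 100 from by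
    have := h.δ0; positivity), h.inDia, h.rfar, h.gclose (show 0 < δ from h.δ0)]
    with k k1 k2 k3 k4 k5 k6 k7 k8 k9 T
  have hδ := h.δ0
  have n0 : 0 < nb δ (a k) := nb_pos k5 (by linarith)
  have n1 := nb_le hδ k5
  have key := H.scut _ _ _ _ _ _ _ _ _ _ _ _ (c k).2 _ _ k2.spr k2.isH k1 n0 k3.le ?_ ?_ ?_ ?_
    (fun x h1 h2 => (k4 x h1 h2).1) (fun x h1 h2 => (k4 x h1 h2).2) T
  · simp only [H170.lap_AL] at key
    have p1 : 0 ≤ ∑ w ∈ T, |lap (fun x => (1 - CT (c k).2 (2 * nb δ (a k)) x) * Hs k x) w| :=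
      sum_nonneg fun _ _ => abs_nonneg _
    have p2 : 0 ≤ ∑ w ∈ T, |lap (fun x => (1 - CT (c k).2 (2 * nb δ (a k)) x) * Hf k x) w| :=
      sum_nonneg fun _ _ => abs_nonneg _
    constructor <;> linarith
  · intro v hv
    rw [mem_singleton] at hv
    rw [hv, mem_bx]
    rcases AL.mem_cnr.1 k2.cnr with h6 | h6 | h6 | h6 <;> rw [h6] <;> simp <;> lia
  · intro f hf
    rw [Finset.mem_sdiff, Finset.mem_insert] at hf
    rcases hf.1 with h1 | h1
    · rw [h1]; exact H170.self_mem_bx _ _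
    · exact absurd h1 hf.2
  · intro f hf hbx
    obtain ⟨p, -, rfl⟩ := mem_image.1 (mem_inter.1 hf).1
    have h1 := norm_of_bx k5 hbx
    have h2 := k8 p
    push_cast at h1
    linarith
  · intro x hx
    refine k7 x ?_
    have h1 := norm_of_bx k5 hx
    have h2 := norm_sub_le_norm_sub_add_norm_sub (pt (a k) x) (pt (a k) (c k).2) z'
    push_cast at h1
    linarith

/-- `ℓ²` bounds outside the ball. -/
theorem l2_out {z : ℂ} {ρ : ℝ} (hρ : 0 < ρ) (hz : ∀ w, ‖w - z‖ ≤ ρ → 9 * δ < ‖w - z'‖ ∧ w ∈ Ω.D)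
    {X : ι → Pt → ℝ} (hX : ∀ k x, X k x ^ 2 ≤ A k x ^ 2 + B k x ^ 2 + C k x ^ 2 + E k x ^ 2) :
    L2ball l a z ρ (8 * 1036800000 * ρ) (fun k x => (√(a k * L k))⁻¹ * X k x) := by
  classical
  have hδ := h.δ0
  set X' : ι → Pt → ℝ := fun k x => if x ∉ bx (c k).2 (4 * nb δ (a k) + 2) ∧ x ∈ N k then
    (√(L k))⁻¹ * X k x else 0 with hX'
  have hbox : ∀ᶠ k in l, ∀ c' n, ∑ x ∈ bx c' n, X' k x ^ 2 ≤ 1036800000 * (n + 2) := by
    filter_upwards [masses h hB hL0 hL, hB, hL0, h.apos, h.asmall (show 0 < δ / 100 from by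
      positivity)] with k k1 k2 k3 k5 k6 c' n
    have n0 : 0 < nb δ (a k) := nb_pos k5 (by linarith)
    obtain ⟨K, -, hs0, hf0, -⟩ := H.supp k2.spr k2.isH ∅
    have e0 : ∀ x ∉ bx (c k).2 (4 * nb δ (a k)), 1 - CT (c k).2 (2 * nb δ (a k)) x = 1 := by
      intro x hx
      rw [CT_zero (by lia) fun h' => hx (bx_mono (by lia) h'), sub_zero]
    have key := H.ssq _ (box K) _ _ _ _ _ _ _ _ (c k).2 (4 * nb δ (a k))
      (fun x => (1 - CT (c k).2 (2 * nb δ (a k)) x) * Hs k x)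
      (fun x => (1 - CT (c k).2 (2 * nb δ (a k)) x) * Hf k x) (900000 * L k) k2.spr k2.isH
      (fun x hx => by simp only [hs0 x hx, mul_zero])
      (fun x hx => by simp only [hf0 x hx, mul_zero])
      (fun x hx => by simp only [e0 x hx, one_mul]) (fun x hx => by simp only [e0 x hx, one_mul])
      (fun T => by simp only [H170.lap_AL]; exact (k1 T).1)
      (fun T => by simp only [H170.lap_AL]; exact (k1 T).2) c' n
      ((bx c' n).filter fun x => x ∉ bx (c k).2 (4 * nb δ (a k) + 2) ∧ x ∈ N k)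
      (fun x hx => ⟨(mem_filter.1 hx).1, (mem_filter.1 hx).2⟩)
    have e1 : ∑ x ∈ bx c' n, X' k x ^ 2 = (L k)⁻¹ *
        ∑ x ∈ (bx c' n).filter (fun x => x ∉ bx (c k).2 (4 * nb δ (a k) + 2) ∧ x ∈ N k), X k x ^ 2 := by
      rw [mul_sum, sum_filter]
      refine sum_congr rfl fun x _ => ?_
      simp only [hX']
      split_ifs
      · rw [mul_pow, inv_pow, Real.sq_sqrt k3.le]
      · norm_num
    rw [e1]
    have h2 := (sum_le_sum fun x (_ : x ∈ (bx c' n).filter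
      (fun x => x ∉ bx (c k).2 (4 * nb δ (a k) + 2) ∧ x ∈ N k)) => hX k x).trans key
    calc (L k)⁻¹ * ∑ x ∈ (bx c' n).filter (fun x => x ∉ bx (c k).2 (4 * nb δ (a k) + 2) ∧ x ∈ N k),
          X k x ^ 2 ≤ (L k)⁻¹ * (1152 * (900000 * L k) * (n + 2)) :=
          mul_le_mul_of_nonneg_left h2 (by positivity)
      _ = 1036800000 * (n + 2) := by field_simp; norm_num
  have h1 := H170.l2_of_box h.a0 (by norm_num) hbox z hρ
  filter_upwards [h1, h.apos, h.asmall (show 0 < δ / 100 from by positivity),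
    h.gclose (show 0 < δ / 100 from by positivity), hL0,
    h.hN.cpt (isCompact_closedBall z ρ) fun w hw => (hz w (by
      rwa [Metric.mem_closedBall, dist_eq_norm] at hw)).2] with k k1 k5 k6 k7 k8 k9 S hS
  refine le_trans (le_of_eq ?_) (k1 S hS)
  congr 1
  refine sum_congr rfl fun x hx => ?_
  have h2 := (hz _ (hS x hx)).1
  have h3 : x ∉ bx (c k).2 (4 * nb δ (a k) + 2) := by
    intro hbx
    have h4 := norm_of_bx k5 hbx
    have h5 := norm_sub_le_norm_sub_add_norm_sub (pt (a k) x) (pt (a k) (c k).2) z'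
    have n1 := nb_le hδ k5
    push_cast at h4
    linarith
  simp only [hX', if_pos (And.intro h3 (k9 x (by
    rw [Metric.mem_closedBall, dist_eq_norm]; exact hS x hx)))]
  rw [Real.sqrt_mul k5.le, mul_inv]
  ring

end Vale.Agent.P144Y.C
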